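import Vale.Agent.P013.Core

namespace Vale.Agent.Results.P013.Jacobsthal

/-- Jacobsthal's function: the least positive `l` such that every `l` consecutive integers
contain one coprime to `n` (valued in `ℕ∞`, so it would be `⊤` if there were no such `l`). -/
noncomputable def jac (n : ℕ) : ℕ∞ :=
  sInf {m : ℕ∞ | ∃ l : ℕ, m = l ∧ 0 < l ∧ ∀ N : ℤ, ∃ i : ℕ, i < l ∧ IsCoprime (N + i) (n : ℤ)}

/-- The supremum of `jac n` over all `n ≥ 1` with at most `k` distinct prime factors. -/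
noncomputable def hJac (k : ℕ) : ℕ∞ :=
  ⨆ (n : ℕ) (_ : 1 ≤ n ∧ n.primeFactors.card ≤ k), jac n

theorem le_sqrt_mul {k y A : ℕ} (hk : (k : ℝ) ^ 2 ≤ y * Real.log y ^ (2 * A)) :
    (k : ℝ) ≤ √y * Real.log y ^ A := by
  refine le_of_sq_le_sq ?_ (by positivity)
  rw [mul_pow, Real.sq_sqrt (by positivity), ← pow_mul, mul_comm A 2]
  exact hk

theorem hJac_le (A : ℕ) : ∃ y₀ : ℕ, ∀ y k : ℕ, y₀ ≤ y →
    (k : ℝ) ^ 2 ≤ y * Real.log y ^ (2 * A) → hJac k ≤ y := by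
  obtain ⟨y₀, h⟩ := Vale.Agent.P013.jac_main A
  refine ⟨y₀ + 1, fun y k hy hk => iSup₂_le fun n hn => sInf_le ⟨y, rfl, by omega, fun N => ?_⟩⟩
  refine h y n N (by omega) hn.1 (le_trans (by exact_mod_cast hn.2 : _ ≤ (k : ℝ)) ?_)
  exact le_sqrt_mul hk

theorem result : (∃ C : ℕ, ∀ k : ℕ, 1 ≤ k → hJac k ≤ (C * k ^ 2 : ℕ)) ∧
    ∀ A : ℕ, ∃ C : ℝ, ∀ k : ℕ, 2 ≤ k →
      ∃ h : ℕ, hJac k = h ∧ (h : ℝ) ≤ C * k ^ 2 / Real.log k ^ A := by
  constructor
  · obtain ⟨y₀, h⟩ := hJac_le 0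
    refine ⟨y₀ + 1, fun k hk => h _ k ?_ ?_⟩
    · nlinarith [Nat.one_le_pow 2 k hk]
    · push_cast
      have : (0 : ℝ) ≤ y₀ * k ^ 2 := by positivity
      simp only [mul_zero, pow_zero, mul_one]
      nlinarith
  · intro A
    obtain ⟨y₀, h⟩ := hJac_le A
    refine ⟨(y₀ + 2) * A.factorial + 2 ^ A, fun k hk => ?_⟩
    have hk' : (2 : ℝ) ≤ k := by exact_mod_cast hk
    have hl : 1 / 2 ≤ Real.log k :=
      le_trans (by linarith [Real.log_two_gt_d9]) (Real.log_le_log (by norm_num) hk')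
    have hl0 : 0 < Real.log k := by linarith
    have hA : 0 < Real.log k ^ A := by positivity
    set y : ℕ := y₀ + k + ⌈2 ^ A * (k : ℝ) ^ 2 / Real.log k ^ A⌉₊ with hy
    have h1 : 2 ^ A * (k : ℝ) ^ 2 / Real.log k ^ A ≤ y := by
      refine (Nat.le_ceil _).trans ?_
      exact_mod_cast (by omega : ⌈2 ^ A * (k : ℝ) ^ 2 / Real.log k ^ A⌉₊ ≤ y)
    have h2 : Real.log k ≤ Real.log y :=
      Real.log_le_log (by linarith) (by exact_mod_cast (by omega : k ≤ y))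
    have h3 : (k : ℝ) ^ 2 ≤ y * Real.log y ^ (2 * A) := by
      have h4 : (1 : ℝ) ≤ (2 * Real.log k) ^ A := one_le_pow₀ (by linarith)
      calc (k : ℝ) ^ 2 ≤ (k : ℝ) ^ 2 * (2 * Real.log k) ^ A :=
            le_mul_of_one_le_right (by positivity) h4
        _ = 2 ^ A * (k : ℝ) ^ 2 / Real.log k ^ A * Real.log k ^ (2 * A) := by
            rw [mul_pow, two_mul A, pow_add]; field_simp
        _ ≤ y * Real.log y ^ (2 * A) := by gcongr
    have h5 := h y k (by omega) h3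
    obtain ⟨l, hl'⟩ := ENat.ne_top_iff_exists.1 (ne_top_of_le_ne_top (ENat.natCast_ne_top y) h5)
    refine ⟨l, hl'.symm, ?_⟩
    have h6 : (l : ℝ) ≤ y := by
      rw [← hl'] at h5
      exact_mod_cast h5
    have h7 : Real.log k ^ A ≤ A.factorial * k := by
      have := Real.pow_div_factorial_le_exp (Real.log k) hl0.le A
      rw [Real.exp_log (by linarith), div_le_iff₀ (by positivity)] at this
      linarith
    have h8 : (k : ℝ) ≤ A.factorial * k ^ 2 / Real.log k ^ A := by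
      rw [le_div_iff₀ hA]
      nlinarith
    have h9 : (y : ℝ) ≤ y₀ + k + (2 ^ A * (k : ℝ) ^ 2 / Real.log k ^ A + 1) := by
      rw [hy]; push_cast
      linarith [Nat.ceil_lt_add_one (show 0 ≤ 2 ^ A * (k : ℝ) ^ 2 / Real.log k ^ A by positivity)]
    have h10 : (y₀ : ℝ) ≤ y₀ * k := le_mul_of_one_le_right (by positivity) (by linarith)
    have h11 : ((y₀ : ℝ) + 2) * k ≤ (y₀ + 2) * (A.factorial * k ^ 2 / Real.log k ^ A) := by
      gcongr
    calc (l : ℝ) ≤ (y₀ + 2) * (A.factorial * k ^ 2 / Real.log k ^ A) +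
          2 ^ A * (k : ℝ) ^ 2 / Real.log k ^ A := by linarith
      _ = _ := by ring

end Vale.Agent.Results.P013.Jacobsthal
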